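import Vale.Agent.P011.D4X.H657.Bas

/-!
The elements `z(x₀, x; s)`, the long and the short elements, the central torus.
-/

open Vale.Agent.P011.MPQ Vale.Agent.P011.D4 Vale.Agent.P011.D4.Oct Vale.Agent.P011.D4.H24
open Vale.Agent.P011.E6

set_option linter.unusedSectionVars false

namespace Vale.Agent.P011.D4X

section model

variable {k L E : Type} [Field k] [Field L] [Field E] [Algebra k L] [Algebra k E] [Algebra L E]
  [IsScalarTower k L E] {ρ σ : E ≃ₐ[k] E} {ρL : L ≃ₐ[k] L} {α : E}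
  {a b c : kˣ} {q : Lˣ} [NeZero (2 : E)] (H : Hy ρ σ ρL α a b c q)

include H

/-- The general form: an element of `AT` from `X`, `w`, `t`. -/
theorem zE_mem {X w : Qt (up E a) (up E b)} {t : E} (hX : nrd X ≠ 0) (hw : nrd w ≠ 0)
    (ht : t ≠ 0) (hwρ : qmap ρ w = w) (hwσ : qmap σ w = w) (htσ : σ t = t)
    (hA : ρ (ρ t) * ρ t * nrd w = ρ (nrd X))
    (hB : ρ (ρ t) * nrd X = ρ (nrd X) * t) (hC : ρ t * ρ (ρ (nrd X)) = ρ (nrd X) * t)
    (hXm : mq a b α (algebraMap L E (q : L)) * qmap σ X = X * mq a b α (algebraMap L E (q : L)))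
    {κ : Lˣ} (hκ : ρ (nrd X) * algebraMap L E (κ : L) = 1) :
    ∃ z : AT ρ σ α a b c q, IsKap ρ z.1 κ ∧ ∀ y, z.1 y = zFun ρ X w t y := by
  have hk : IsKap ρ (zE ρ X w t hX hw ht : OctL E a b c ≃ₗ[E] OctL E a b c) κ := by
    intro x y
    rw [zE_apply, zE_apply, zE_apply, ← zFun_tri H.ρ3 hwρ hA hB hC, smul_smul,
      mul_comm (algebraMap L E (κ : L)), hκ, one_smul]
  refine ⟨⟨zE ρ X w t hX hw ht, ⟨κ, hk⟩, fun x => ?_⟩, hk, fun y => rfl⟩
  rw [zE_apply, zE_apply, Jm_Jq, Jm_Jq]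
  exact zFun_Jq H.hj hwσ htσ hXm x

theorem rho_alg (t : L) : ρ (algebraMap L E t) = algebraMap L E (ρL t) := H.ρL' t

theorem ρL3 (t : L) : ρL (ρL (ρL t)) = t := by
  apply (algebraMap L E).injective
  rw [← H.ρL', ← H.ρL', ← H.ρL', H.ρ3]

/-- The adjoint elements which commute with the standard involution. -/
theorem exists_z (x0 : Qt a b) (x : Qt (up L a) (q * up L b)) (s : kˣ)
    (h : algebraMap k L (nrd x0) * (nrd x * ρL (nrd x) * ρL (ρL (nrd x))) =
      algebraMap k L ((s : k) ^ 2)) :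
    ∃ z : AT ρ σ α a b c q, z ∈ stab0 ρ σ α a b c q ∧
      (∀ κ : Lˣ, ρL (nrd x) * κ = 1 → IsKap ρ z.1 κ) ∧ ∀ y, z.1 y = zF ρ ρL α q x0 x s y := by
  have hs : (s : k) ≠ 0 := s.ne_zero
  have hS : algebraMap k E (s : k) ≠ 0 := by rwa [Ne, map_eq_zero]
  have hne : algebraMap k L (nrd x0) * (nrd x * ρL (nrd x) * ρL (ρL (nrd x))) ≠ 0 := by
    rw [h, Ne, map_eq_zero]
    exact pow_ne_zero 2 hs
  have hx0 : nrd x0 ≠ 0 := fun h0 => hne (by rw [h0, map_zero, zero_mul])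
  have hν : nrd x ≠ 0 := fun h0 => hne (by rw [h0, zero_mul, zero_mul, mul_zero])
  have hE : algebraMap k E (nrd x0) * (algebraMap L E (nrd x) * ρ (algebraMap L E (nrd x)) *
      ρ (ρ (algebraMap L E (nrd x)))) = algebraMap k E (s : k) ^ 2 := by
    have h1 := congrArg (algebraMap L E) h
    rw [map_mul, map_mul, map_mul, ← IsScalarTower.algebraMap_apply,
      ← IsScalarTower.algebraMap_apply, map_pow] at h1
    rw [H.ρL', H.ρL', h1]
  have hT : algebraMap L E (nrd x * ρL (ρL (nrd x))) =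
      algebraMap L E (nrd x) * ρ (ρ (algebraMap L E (nrd x))) := by
    rw [map_mul, H.ρL', H.ρL']
  have hX := nrd_psiL H x
  have hX0 : nrd (psiL α q x : Qt (up E a) (up E b)) ≠ 0 := by
    rw [hX, Ne, map_eq_zero]; exact hν
  set n := algebraMap L E (nrd x) with hn
  have hn0 : n ≠ 0 := by rw [hn, Ne, map_eq_zero]; exact hν
  have hρs : ρ (algebraMap k E (s : k)) = algebraMap k E (s : k) := ρ.commutes _
  have hσs : σ (algebraMap k E (s : k)) = algebraMap k E (s : k) := σ.commutes _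
  have hσn : σ n = n := H.σL _
  set ν := nrd x with hνdef
  have hκ0 : ρ n ≠ 0 := fun h0 => hn0 ((map_eq_zero_iff ρ ρ.injective).1 h0)
  obtain ⟨κ, hκ⟩ : ∃ κ : Lˣ, ρL ν * (κ : L) = 1 := by
    have h1 : ρL ν ≠ 0 := fun h0 => hν ((map_eq_zero_iff ρL ρL.injective).1 h0)
    exact ⟨(Units.mk0 _ h1)⁻¹, by
      rw [Units.val_inv_eq_inv_val, Units.val_mk0, mul_inv_cancel₀ h1]⟩
  have hκ' : ρ n * algebraMap L E (κ : L) = 1 := by
    rw [hn, H.ρL', ← map_mul, hκ, map_one]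
  obtain ⟨z, hz1, hz2⟩ := zE_mem (c := c) H (X := psiL α q x) (w := qup E x0)
    (t := algebraMap L E (ν * ρL (ρL ν)) / algebraMap k E (s : k)) (κ := κ)
    hX0 (by rw [nrd_qup, Ne, map_eq_zero]; exact hx0)
    (by
      rw [hT]
      exact div_ne_zero (mul_ne_zero hn0 (fun h0 => hκ0 ((map_eq_zero_iff ρ ρ.injective).1 h0)))
        hS)
    (qmap_qup ρ x0) (qmap_qup σ x0)
    (by rw [map_div₀, H.σL, hσs])
    (by
      rw [hX, nrd_qup, hT]
      simp only [map_div₀, map_mul, hρs, H.ρ3]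
      rw [div_mul_div_comm, div_mul_eq_mul_div, div_eq_iff (mul_ne_zero hS hS)]
      linear_combination ρ n * hE)
    (by
      rw [hX, hT]
      simp only [map_div₀, map_mul, hρs, H.ρ3]
      ring)
    (by
      rw [hX, hT]
      simp only [map_div₀, map_mul, hρs, H.ρ3]
      ring)
    (psiL_comm H x) (by rw [hX]; exact hκ')
  refine ⟨z, fun y => ?_, fun κ' hκ'' => ?_, hz2⟩
  · rw [hz2, hz2]
    apply Oct.ext
    · rfl
    · change _ • (qup E x0 * -y.snd * star (qmap ρ (psiL α q x))) =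
        -(_ • (qup E x0 * y.snd * star (qmap ρ (psiL α q x))))
      rw [mul_neg, neg_mul, smul_neg]
  · have : κ' = κ := by
      apply Units.ext
      have h1 : ρL ν ≠ 0 := fun h0 => hν ((map_eq_zero_iff ρL ρL.injective).1 h0)
      exact mul_left_cancel₀ h1 (hκ''.trans hκ.symm)
    rw [this]
    exact hz1

omit [NeZero (2 : E)] H in
theorem mem_GT_of {z : AT ρ σ α a b c q} (h : IsKap ρ z.1 (1 : Lˣ)) : z.1 ∈ GT ρ σ α a b c q :=
  ⟨fun x y => by rw [h x y, Units.val_one, map_one, one_smul], z.2.2⟩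

omit [NeZero (2 : E)] H in
theorem nrd_one_q : nrd (1 : Qt (up E a) (up E b)) = 1 := by
  simp [nrd]

theorem exists_long (x : SL1 a b) : ∃ g ∈ GT ρ σ α a b c q, ∀ y : OctL E a b c,
    g y = ⟨y.fst, qup E ((x : (Qt a b)ˣ) : Qt a b) * y.snd⟩ := by
  have hx : nrd ((x : (Qt a b)ˣ) : Qt a b) = 1 := x.2
  have h1 : nrd (1 : Qt (up E a) (up E b)) = 1 := nrd_one_q
  obtain ⟨z, hz1, hz2⟩ := zE_mem (c := c) H (X := 1) (w := qup E ((x : (Qt a b)ˣ) : Qt a b))
    (t := 1) (κ := 1) (by rw [h1]; exact one_ne_zero)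
    (by rw [nrd_qup, hx, map_one]; exact one_ne_zero) one_ne_zero (qmap_qup ρ _)
    (qmap_qup σ _) (map_one σ) (by rw [nrd_qup, hx, h1]; simp) (by rw [h1]; simp)
    (by rw [h1]; simp) (by rw [qmap_one, mul_one, one_mul]) (by rw [h1]; simp)
  refine ⟨z.1, mem_GT_of hz1, fun y => ?_⟩
  rw [hz2]
  apply Oct.ext
  · rw [fst_zFun, qmap_one, qmap_one, star_one, one_mul, mul_one]
  · rw [snd_zFun, qmap_one, star_one, mul_one, one_smul]

theorem exists_short (x : SL1 (up L a) (q * up L b)) : ∃ g ∈ GT ρ σ α a b c q,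
    ∀ y : OctL E a b c, g y = shortFun ρ (psiL α q ((x : (Qt (up L a) (q * up L b))ˣ) :
      Qt (up L a) (q * up L b))) y := by
  have hx : nrd ((x : (Qt (up L a) (q * up L b))ˣ) : Qt (up L a) (q * up L b)) = 1 := x.2
  have h1 : nrd (1 : Qt (up E a) (up E b)) = 1 := nrd_one_q
  have h2 := nrd_psiL H ((x : (Qt (up L a) (q * up L b))ˣ) : Qt (up L a) (q * up L b))
  rw [hx, map_one] at h2
  obtain ⟨z, hz1, hz2⟩ := zE_mem (c := c) H
    (X := psiL α q ((x : (Qt (up L a) (q * up L b))ˣ) : Qt (up L a) (q * up L b))) (w := 1)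
    (t := 1) (κ := 1) (by rw [h2]; exact one_ne_zero)
    (by rw [h1]; exact one_ne_zero) one_ne_zero (qmap_one ρ)
    (qmap_one σ) (map_one σ) (by rw [h1, h2]; simp) (by rw [h2]; simp)
    (by rw [h2]; simp) (psiL_comm H _) (by rw [h2]; simp)
  refine ⟨z.1, mem_GT_of hz1, fun y => ?_⟩
  rw [hz2]
  apply Oct.ext
  · rfl
  · rw [snd_zFun, one_smul, one_mul]
    rfl

end model

end Vale.Agent.P011.D4X
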