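import Vale.Agent.P011.D4X.H657.Jq

/-!
The similitudes of the cyclic composition which preserve the decomposition into quaternions.
-/

open Vale.Agent.P011.MPQ Vale.Agent.P011.D4 Vale.Agent.P011.D4.Oct Vale.Agent.P011.D4.H24

namespace Vale.Agent.P011.D4X

section zx

variable {k E : Type} [Field k] [Field E] [Algebra k E] {a b c : kˣ} {ρ σ : E ≃ₐ[k] E} {α : E}

/-- The similitude attached to `X`, `w`, `t`. -/
def zFun (ρ : E ≃ₐ[k] E) {a b c : kˣ} (X w : Qt (up E a) (up E b)) (t : E) (y : OctL E a b c) :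
    OctL E a b c :=
  ⟨X * y.fst * star (qmap ρ (qmap ρ X)), t • (w * y.snd * star (qmap ρ X))⟩

theorem fst_zFun (X w : Qt (up E a) (up E b)) (t : E) (y : OctL E a b c) :
    (zFun ρ X w t y).fst = X * y.fst * star (qmap ρ (qmap ρ X)) := rfl

theorem snd_zFun (X w : Qt (up E a) (up E b)) (t : E) (y : OctL E a b c) :
    (zFun ρ X w t y).snd = t • (w * y.snd * star (qmap ρ X)) := rfl

theorem zFun_add (X w : Qt (up E a) (up E b)) (t : E) (y z : OctL E a b c) :
    zFun ρ X w t (y + z) = zFun ρ X w t y + zFun ρ X w t z := by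
  ext1
  · simp only [fst_zFun, fst_add, mul_add, add_mul]
  · simp only [snd_zFun, snd_add, mul_add, add_mul, smul_add]

theorem zFun_smul (X w : Qt (up E a) (up E b)) (t r : E) (y : OctL E a b c) :
    zFun ρ X w t (r • y) = r • zFun ρ X w t y := by
  ext1
  · simp only [fst_zFun, fst_smul, mul_smul_comm, smul_mul_assoc]
  · simp only [snd_zFun, snd_smul, mul_smul_comm, smul_mul_assoc, smul_comm t r]

theorem zFun_mul (X X' w w' : Qt (up E a) (up E b)) (t t' : E) (y : OctL E a b c) :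
    zFun ρ X w t (zFun ρ X' w' t' y) = zFun ρ (X * X') (w * w') (t * t') y := by
  ext1
  · simp only [fst_zFun, qmap_mul, star_mul, mul_assoc]
  · simp only [snd_zFun, qmap_mul, star_mul, mul_assoc, mul_smul_comm, smul_mul_assoc, smul_smul]

theorem zFun_one (y : OctL E a b c) : zFun ρ 1 1 1 y = y := by
  ext1
  · simp only [fst_zFun, qmap_one, star_one, mul_one, one_mul]
  · simp only [snd_zFun, qmap_one, star_one, mul_one, one_mul, one_smul]

theorem q_inv_mul {X : Qt (up E a) (up E b)} (hX : nrd X ≠ 0) :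
    ((nrd X)⁻¹ • star X) * X = 1 := by
  rw [smul_mul_assoc, q_star_mul, smul_smul, inv_mul_cancel₀ hX, one_smul]

theorem q_mul_inv {X : Qt (up E a) (up E b)} (hX : nrd X ≠ 0) :
    X * ((nrd X)⁻¹ • star X) = 1 := by
  rw [mul_smul_comm, q_mul_star, smul_smul, inv_mul_cancel₀ hX, one_smul]

/-- The similitude attached to `X`, `w`, `t`, as a linear equivalence. -/
def zE (ρ : E ≃ₐ[k] E) {a b c : kˣ} (X w : Qt (up E a) (up E b)) (t : E) (hX : nrd X ≠ 0)
    (hw : nrd w ≠ 0) (ht : t ≠ 0) : OctL E a b c ≃ₗ[E] OctL E a b c where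
  toFun := zFun ρ X w t
  invFun := zFun ρ ((nrd X)⁻¹ • star X) ((nrd w)⁻¹ • star w) t⁻¹
  left_inv y := by
    rw [zFun_mul, q_inv_mul hX, q_inv_mul hw, inv_mul_cancel₀ ht, zFun_one]
  right_inv y := by
    rw [zFun_mul, q_mul_inv hX, q_mul_inv hw, mul_inv_cancel₀ ht, zFun_one]
  map_add' y z := zFun_add X w t y z
  map_smul' r y := zFun_smul X w t r y

theorem zE_apply (X w : Qt (up E a) (up E b)) (t : E) (hX : nrd X ≠ 0)
    (hw : nrd w ≠ 0) (ht : t ≠ 0) (y : OctL E a b c) :
    zE ρ X w t hX hw ht y = zFun ρ X w t y := rfl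

/-- Compatibility with the product. -/
theorem zFun_tri (hρ : ∀ x, ρ (ρ (ρ x)) = x) {X w : Qt (up E a) (up E b)} {t : E}
    (hw : qmap ρ w = w) (hA : ρ (ρ t) * ρ t * nrd w = ρ (nrd X))
    (hB : ρ (ρ t) * nrd X = ρ (nrd X) * t) (hC : ρ t * ρ (ρ (nrd X)) = ρ (nrd X) * t)
    (x y : OctL E a b c) :
    ρ (nrd X) • zFun ρ X w t (tri ρ x y) = tri ρ (zFun ρ X w t x) (zFun ρ X w t y) := by
  have hqc : ∀ x : Qt (up E a) (up E b), qmap ρ (qmap ρ (qmap ρ x)) = x := fun x => by
    ext <;> simp [hρ]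
  have t1 : qmap ρ (star (X * x.fst * star (qmap ρ (qmap ρ X)))) =
      X * (qmap ρ (star x.fst) * star (qmap ρ X)) := by
    rw [star_mul, star_mul, star_star, qmap_mul, qmap_mul, hqc, qmap_star ρ X]
  have t2 : qmap ρ (qmap ρ (star (X * y.fst * star (qmap ρ (qmap ρ X))))) =
      qmap ρ X * (qmap ρ (qmap ρ (star y.fst)) * star (qmap ρ (qmap ρ X))) := by
    rw [star_mul, star_mul, star_star, qmap_mul, qmap_mul, qmap_mul, qmap_mul, hqc, qmap_star ρ X,
      qmap_star ρ (qmap ρ X)]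
  have t3 : qmap ρ (t • (w * x.snd * star (qmap ρ X))) =
      ρ t • (w * (qmap ρ x.snd * star (qmap ρ (qmap ρ X)))) := by
    rw [qmap_smul, qmap_mul, qmap_mul, hw, qmap_star, mul_assoc]
  have t4 : qmap ρ (qmap ρ (t • (w * y.snd * star (qmap ρ X)))) =
      ρ (ρ t) • (w * (qmap ρ (qmap ρ y.snd) * star X)) := by
    rw [qmap_smul, qmap_smul, qmap_mul, qmap_mul, qmap_mul, qmap_mul, hw, hw, qmap_star, qmap_star,
      hqc, mul_assoc]
  have n1 : star (qmap ρ X) * qmap ρ X = ρ (nrd X) • 1 := by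
    rw [← nrd_qmap, q_star_mul]
  apply Oct.ext
  · rw [fst_smul, fst_zFun, fst_tri, fst_tri, fst_zFun, fst_zFun, snd_zFun, snd_zFun, t1, t2, t3,
      t4]
    have s1 : X * (qmap ρ (star x.fst) * star (qmap ρ X)) *
        (qmap ρ X * (qmap ρ (qmap ρ (star y.fst)) * star (qmap ρ (qmap ρ X)))) =
        ρ (nrd X) • (X * (qmap ρ (star x.fst) * qmap ρ (qmap ρ (star y.fst))) *
          star (qmap ρ (qmap ρ X))) := by
      have e : X * (qmap ρ (star x.fst) * star (qmap ρ X)) *
        (qmap ρ X * (qmap ρ (qmap ρ (star y.fst)) * star (qmap ρ (qmap ρ X)))) =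
        X * (qmap ρ (star x.fst) * ((star (qmap ρ X) * qmap ρ X) *
          (qmap ρ (qmap ρ (star y.fst)) * star (qmap ρ (qmap ρ X))))) := by
        simp only [mul_assoc]
      rw [e, n1, smul_mul_assoc, one_mul, mul_smul_comm, mul_smul_comm]
      simp only [mul_assoc]
    have s2 : star (ρ (ρ t) • (w * (qmap ρ (qmap ρ y.snd) * star X))) *
        (ρ t • (w * (qmap ρ x.snd * star (qmap ρ (qmap ρ X))))) =
        ρ (nrd X) • (X * (star (qmap ρ (qmap ρ y.snd)) * qmap ρ x.snd) *
          star (qmap ρ (qmap ρ X))) := by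
      have e : (X * star (qmap ρ (qmap ρ y.snd)) * star w) *
          (w * (qmap ρ x.snd * star (qmap ρ (qmap ρ X)))) =
          X * star (qmap ρ (qmap ρ y.snd)) * ((star w * w) *
          (qmap ρ x.snd * star (qmap ρ (qmap ρ X)))) := by
        simp only [mul_assoc]
      rw [QuaternionAlgebra.star_smul, star_mul, star_mul, star_star, smul_mul_smul_comm, e,
        q_star_mul, smul_mul_assoc, one_mul, mul_smul_comm, smul_smul, hA]
      simp only [mul_assoc]
    rw [s1, s2, mul_add, add_mul, smul_add, mul_smul_comm, smul_mul_assoc,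
      smul_comm (ρ (nrd X))]
  · rw [snd_smul, snd_zFun, snd_tri, snd_tri, fst_zFun, fst_zFun, snd_zFun, snd_zFun, t1, t3, t4]
    have s1 : (ρ (ρ t) • (w * (qmap ρ (qmap ρ y.snd) * star X))) *
        (X * (qmap ρ (star x.fst) * star (qmap ρ X))) =
        (ρ (nrd X) * t) • (w * (qmap ρ (qmap ρ y.snd) * qmap ρ (star x.fst)) *
          star (qmap ρ X)) := by
      have e : (w * (qmap ρ (qmap ρ y.snd) * star X)) *
        (X * (qmap ρ (star x.fst) * star (qmap ρ X))) =
        w * (qmap ρ (qmap ρ y.snd) * ((star X * X) *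
          (qmap ρ (star x.fst) * star (qmap ρ X)))) := by
        simp only [mul_assoc]
      rw [smul_mul_assoc, e, q_star_mul, smul_mul_assoc, one_mul, mul_smul_comm,
        mul_smul_comm, smul_smul, hB]
      simp only [mul_assoc]
    have s2 : (ρ t • (w * (qmap ρ x.snd * star (qmap ρ (qmap ρ X))))) *
        qmap ρ (qmap ρ (X * y.fst * star (qmap ρ (qmap ρ X)))) =
        (ρ (nrd X) * t) • (w * (qmap ρ x.snd * qmap ρ (qmap ρ y.fst)) *
          star (qmap ρ X)) := by
      have e : (w * (qmap ρ x.snd * star (qmap ρ (qmap ρ X)))) *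
        qmap ρ (qmap ρ (X * y.fst * star (qmap ρ (qmap ρ X)))) =
        w * (qmap ρ x.snd * ((star (qmap ρ (qmap ρ X)) * qmap ρ (qmap ρ X)) *
          (qmap ρ (qmap ρ y.fst) * star (qmap ρ X)))) := by
        rw [qmap_mul, qmap_mul, qmap_mul, qmap_mul, qmap_star, qmap_star, hqc]
        simp only [mul_assoc]
      rw [smul_mul_assoc, e, q_star_mul, nrd_qmap, nrd_qmap, smul_mul_assoc, one_mul,
        mul_smul_comm, mul_smul_comm, smul_smul, hC]
      simp only [mul_assoc]
    rw [s1, s2, mul_neg, neg_mul, smul_neg, smul_neg, smul_smul, mul_add, add_mul, smul_add]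

/-- Compatibility with `J`. -/
theorem zFun_Jq [NeZero (2 : E)] {q q' q'' : E} (h : HJ a ρ σ α q q' q'')
    {X w : Qt (up E a) (up E b)} {t : E} (hw : qmap σ w = w) (ht : σ t = t)
    (hX : mq a b α q * qmap σ X = X * mq a b α q) (x : OctL E a b c) :
    zFun ρ X w t (Jq σ α q q' x) = Jq σ α q q' (zFun ρ X w t x) := by
  have h1 : star (qmap σ X) * star (mq a b α q) = star (mq a b α q) * star X := by
    have := congrArg star hX
    rwa [star_mul, star_mul] at this
  have h2 : mq a b α (q * q') * star (qmap ρ (qmap ρ X)) =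
      star (qmap σ (qmap ρ (qmap ρ X))) * mq a b α (q * q') := by
    have h3 : qmap ρ (qmap ρ (star (qmap σ X) * star (mq a b α q))) =
        qmap ρ (qmap ρ (star (mq a b α q) * star X)) := by rw [h1]
    rw [qmap_mul, qmap_mul, qmap_mul, qmap_mul, h.B, mul_smul_comm, smul_mul_assoc] at h3
    have h4 := smul_right_injective _ h.q2_ne h3
    rw [qmap_star, qmap_star, qmap_star, qmap_star] at h4
    rw [← h4, h.qcomm, h.qcomm]
  have h5 : (mq a b α q * star (mq a b α (q * q'))) * star (qmap ρ X) =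
      star (qmap σ (qmap ρ X)) * (mq a b α q * star (mq a b α (q * q'))) := by
    have h3 := congrArg (qmap ρ) h1
    rw [qmap_mul, qmap_mul] at h3
    have hH := h.H (b := b)
    rw [← hH, smul_mul_assoc, mul_smul_comm, h.qcomm, ← qmap_star, ← h3, qmap_star ρ (qmap σ X)]
  apply Oct.ext
  · rw [fst_zFun, fst_Jq, fst_Jq, fst_zFun, qmap_mul, qmap_mul, qmap_star]
    rw [show X * (mq a b α q * qmap σ x.fst * mq a b α (q * q')) * star (qmap ρ (qmap ρ X)) =
      (X * mq a b α q) * (qmap σ x.fst * (mq a b α (q * q') * star (qmap ρ (qmap ρ X)))) by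
      simp only [mul_assoc], ← hX, h2]
    simp only [mul_assoc]
  · rw [snd_zFun, snd_Jq, snd_Jq, snd_zFun, qmap_smul, ht, qmap_mul, qmap_mul, qmap_star, hw]
    rw [show w * (qmap σ x.snd * (mq a b α q * star (mq a b α (q * q')))) * star (qmap ρ X) =
      w * (qmap σ x.snd * ((mq a b α q * star (mq a b α (q * q'))) * star (qmap ρ X))) by
      simp only [mul_assoc], h5, smul_mul_assoc]
    simp only [mul_assoc]

end zx

end Vale.Agent.P011.D4X
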