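import Vale.Agent.P011.D4X.H657.Tor
import Vale.Agent.P011.D4X.H63.Nei
import Vale.Agent.P011.D4.NTS
import Vale.Agent.P011.E6.FixB
import Vale.Agent.P011.E6I.H64.Real

/-!
Transitivity along the standard line.
-/

open NumberField
open Vale.Agent.P011.MPQ Vale.Agent.P011.D4 Vale.Agent.P011.D4.Oct Vale.Agent.P011.D4.H24
open Vale.Agent.P011.E6

set_option linter.unusedSectionVars false

namespace Vale.Agent.P011.D4X

section pos

variable {k L E : Type} [Field k] [Field L] [Field E] [Algebra k L] [Algebra k E] [Algebra L E]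
  [IsScalarTower k L E] {ρ σ : E ≃ₐ[k] E} {ρL : L ≃ₐ[k] L} {α : E}
  {a b c : kˣ} {q : Lˣ} (H : Hy ρ σ ρL α a b c q)

include H

/-- The reduced norm of `Q₁` is positive at the real places where `a` is negative. -/
theorem nrd_pos {w : L →+* ℝ} (hw : w (algebraMap k L a) < 0)
    (hb : w (algebraMap k L b) < 0) (hq : 0 < w (q : L)) {x : Qt (up L a) (q * up L b)}
    (hx : x ≠ 0) : 0 < w (nrd x) := by
  have e1 : ((up L a : Lˣ) : L) = algebraMap k L (a : k) := rfl
  have e2 : ((q * up L b : Lˣ) : L) = (q : L) * algebraMap k L (b : k) := rfl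
  have hqb : w (q : L) * w (algebraMap k L (b : k)) < 0 := mul_neg_of_pos_of_neg hq hb
  have h1 : w (nrd x) = w x.re ^ 2 + (-w (algebraMap k L a)) * w x.imI ^ 2 +
      (-(w (q : L) * w (algebraMap k L (b : k)))) * w x.imJ ^ 2 +
      (w (algebraMap k L a) * (w (q : L) * w (algebraMap k L (b : k)))) * w x.imK ^ 2 := by
    simp only [nrd, e1, e2, map_add, map_sub, map_mul, map_pow]
    ring
  have hp : 0 < w (algebraMap k L a) * (w (q : L) * w (algebraMap k L (b : k))) :=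
    mul_pos_of_neg_of_neg hw hqb
  have g1 : 0 ≤ w x.re ^ 2 := sq_nonneg _
  have g2 : 0 ≤ (-w (algebraMap k L a)) * w x.imI ^ 2 :=
    mul_nonneg (by linarith) (sq_nonneg _)
  have g3 : 0 ≤ (-(w (q : L) * w (algebraMap k L (b : k)))) * w x.imJ ^ 2 :=
    mul_nonneg (by linarith) (sq_nonneg _)
  have g4 : 0 ≤ (w (algebraMap k L a) * (w (q : L) * w (algebraMap k L (b : k)))) *
      w x.imK ^ 2 := mul_nonneg hp.le (sq_nonneg _)
  rcases lt_or_eq_of_le (add_nonneg (add_nonneg (add_nonneg g1 g2) g3) g4) with h | h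
  · rw [h1]; exact h
  · exfalso
    apply hx
    have f1 : w x.re ^ 2 = 0 := by linarith
    have f2 : (-w (algebraMap k L a)) * w x.imI ^ 2 = 0 := by linarith
    have f3 : (-(w (q : L) * w (algebraMap k L (b : k)))) * w x.imJ ^ 2 = 0 := by linarith
    have f4 : (w (algebraMap k L a) * (w (q : L) * w (algebraMap k L (b : k)))) *
      w x.imK ^ 2 = 0 := by linarith
    have r1 : x.re = 0 := (map_eq_zero w).1 (pow_eq_zero_iff two_ne_zero |>.1 f1)
    have r2 : x.imI = 0 := (map_eq_zero w).1 (pow_eq_zero_iff two_ne_zero |>.1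
      ((mul_eq_zero.1 f2).resolve_left (by linarith)))
    have r3 : x.imJ = 0 := (map_eq_zero w).1 (pow_eq_zero_iff two_ne_zero |>.1
      ((mul_eq_zero.1 f3).resolve_left (by linarith)))
    have r4 : x.imK = 0 := (map_eq_zero w).1 (pow_eq_zero_iff two_ne_zero |>.1
      ((mul_eq_zero.1 f4).resolve_left hp.ne'))
    ext
    · exact r1
    · exact r2
    · exact r3
    · exact r4

theorem nrd_ne [NumberField k] {x : Qt (up L a) (q * up L b)} (hx : x ≠ 0) : nrd x ≠ 0 := by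
  obtain ⟨w, hw, hb, -, hq, -, -⟩ := H.cp
  intro h0
  have := nrd_pos H hw hb hq hx
  rw [h0, map_zero] at this
  exact lt_irrefl _ this

/-- The norm to `k` of the reduced norm of an element of `Q₁`. -/
theorem exists_x0 [NumberField k] {x : Qt (up L a) (q * up L b)} (hx : x ≠ 0)
    (hpos : ∀ w : L →+* ℝ, w (algebraMap k L a) < 0 → 0 < w (nrd x)) :
    ∃ (x0 : Qt a b) (s : kˣ), nrd x0 = s ∧
      algebraMap k L (s : k) = nrd x * ρL (nrd x) * ρL (ρL (nrd x)) := by
  have hν := nrd_ne H hx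
  have hρ3 : ∀ t, ρL (ρL (ρL t)) = t := fun t => by
    apply (algebraMap L E).injective
    rw [← H.ρL', ← H.ρL', ← H.ρL', H.ρ3]
  have hfix : ρL (nrd x * ρL (nrd x) * ρL (ρL (nrd x))) =
      nrd x * ρL (nrd x) * ρL (ρL (nrd x)) := by
    rw [map_mul, map_mul, hρ3]
    ring
  obtain ⟨p, hp⟩ := Nei.cyc_fix H.h3 H.ρ1 hfix
  have hp0 : p ≠ 0 := by
    rintro rfl
    rw [map_zero] at hp
    have h1 : ρL (nrd x) ≠ 0 := fun h0 => hν ((map_eq_zero_iff ρL ρL.injective).1 h0)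
    have h2 : ρL (ρL (nrd x)) ≠ 0 := fun h0 => h1 ((map_eq_zero_iff ρL ρL.injective).1 h0)
    exact mul_ne_zero (mul_ne_zero hν h1) h2 hp.symm
  obtain ⟨x0, hx0⟩ := exists_nrd (a := a) (b := b) (Units.mk0 p hp0) fun φ ha _ => by
    obtain ⟨w, hw⟩ := E6I.exists_real_over (L := L) H.h3 φ
    have hw' : ∀ t : k, w (algebraMap k L t) = φ t := fun t => by rw [← hw]; rfl
    have hwa : w (algebraMap k L a) < 0 := by rw [hw']; exact ha
    have p0 := hpos w hwa
    have p1 := hpos (w.comp (ρL : L →+* L)) (by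
      change w (ρL (algebraMap k L a)) < 0
      rw [AlgEquiv.commutes]
      exact hwa)
    have p2 := hpos ((w.comp (ρL : L →+* L)).comp (ρL : L →+* L)) (by
      change w (ρL (ρL (algebraMap k L a))) < 0
      rw [AlgEquiv.commutes, AlgEquiv.commutes]
      exact hwa)
    change 0 < w (ρL (nrd x)) at p1
    change 0 < w (ρL (ρL (nrd x))) at p2
    rw [Units.val_mk0, ← hw', hp, map_mul, map_mul]
    positivity
  exact ⟨x0, Units.mk0 p hp0, hx0, hp⟩

end pos

section line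

variable {k L E : Type} [Field k] [NumberField k] [Field L] [Field E] [Algebra k L] [Algebra k E]
  [Algebra L E] [IsScalarTower k L E] [NeZero (2 : E)] {ρ σ : E ≃ₐ[k] E} {ρL : L ≃ₐ[k] L} {α : E}
  {a b c : kˣ} {q : Lˣ} (H : Hy ρ σ ρL α a b c q)

theorem line_vec (hα : α * α = algebraMap k E a) (s t : E) :
    (s • (ep α * gl) + t • ((1 - ep α) * (gj * gl)) : OctL E a b c) =
      ⟨0, mk4 (up E a) (up E b) α s 0 t 0⟩ := by
  have h2 : (2 : E) ≠ 0 := NeZero.ne _
  have hj : (⟨0, 0, 1, 0⟩ : Qt (up E a) (up E b)) = mk4 (up E a) (up E b) α 0 0 1 1 := by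
    ext
    · change (0 : E) = (0 + 0) / 2
      simp
    · change (0 : E) = (0 - 0) / (2 * α)
      simp
    · change (1 : E) = (1 + 1) / 2
      field_simp
      norm_num
    · change (0 : E) = (1 - 1) / (2 * α)
      simp
  have hgj : (gj : OctL E a b c) = ⟨mk4 (up E a) (up E b) α 0 0 1 1, 0⟩ := by
    rw [← hj]; rfl
  have hgl : (gl : OctL E a b c) = ⟨0, 1⟩ := rfl
  have hα' : α * α = ((up E a : Eˣ) : E) := hα
  rw [em_mk4, ep_mk4, hgj, hgl]
  apply Oct.ext
  · simp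
  · simp only [snd_add, snd_smul, snd_mul, star_zero, mul_zero, zero_mul, add_zero, one_mul]
    rw [mk4_mul hα', smul_mk4, smul_mk4, add_mk4]
    congr 1
    all_goals ring

include H

/-- D1b': transitivity along the standard line. -/
theorem exists_line (s t : E) (h : s ≠ 0 ∨ t ≠ 0) {ν : L}
    (hν : algebraMap L E ν = s * σ s -
      algebraMap k E b * (ρ (algebraMap L E (q : L)))⁻¹ * (t * σ t))
    (hpos : ∀ w : L →+* ℝ, w (algebraMap k L a) < 0 → 0 < w ν) :
    ∃ z ∈ stab0 ρ σ α a b c q, (∀ κ : Lˣ, ν * κ = 1 → IsKap ρ z.1 κ) ∧ ∃ r : E, r ≠ 0 ∧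
      z.1 (ep α) = r • tri ρ (s • (ep α * gl) + t • ((1 - ep α) * (gj * gl)) : OctL E a b c)
        (Jm ρ σ α q (s • (ep α * gl) + t • ((1 - ep α) * (gj * gl)))) := by
  have hj := H.hj
  rw [line_vec H.α2]
  set q0 := algebraMap L E (q : L) with hq0
  have hq : q0 ≠ 0 := hj.q_ne
  obtain ⟨x, hx⟩ := mk4_mem H (s := σ (ρ (ρ s))) (s' := ρ (ρ s)) (T := -ρ (ρ t))
    (T' := -(q0⁻¹ * σ (ρ (ρ t)))) (by rw [H.σ2]) (by
      rw [← hq0, map_neg, map_mul, map_inv₀, H.σ2, hj.s0]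
      field_simp)
  have hx0 : x ≠ 0 := by
    rintro rfl
    have h0 : (psiL α q (0 : Qt (up L a) (q * up L b)) : Qt (up E a) (up E b)) =
        mk4 (up E a) (up E b) α 0 0 0 0 := by
      rw [psiL_eq H]
      simp
    rw [h0] at hx
    obtain ⟨e1, e2, e3, e4⟩ := mk4_inj H.α2 hx
    rcases h with h | h
    · apply h
      apply ρ.injective
      apply ρ.injective
      rw [← e2, map_zero, map_zero]
    · apply h
      apply ρ.injective
      apply ρ.injective
      rw [map_zero, map_zero]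
      exact neg_eq_zero.1 e3.symm
  -- the reduced norm
  have hρ3L : ∀ t, ρL (ρL (ρL t)) = t := fun t => by
    apply (algebraMap L E).injective
    rw [← H.ρL', ← H.ρL', ← H.ρL', H.ρ3]
  have hnν : nrd x = ρL (ρL ν) := by
    apply (algebraMap L E).injective
    have e1 : ρ (ρ (ρ q0))⁻¹ = q0⁻¹ := by rw [map_inv₀, H.ρ3]
    rw [← nrd_psiL H, hx, nrd_mk4 H.α2, ← H.ρL', ← H.ρL', hν]
    simp only [map_sub, map_mul, map_inv₀, AlgEquiv.commutes, H.comm, H.ρ3]
    change _ - algebraMap k E (b : k) * _ = _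
    ring
  have hposx : ∀ w : L →+* ℝ, w (algebraMap k L a) < 0 → 0 < w (nrd x) := by
    intro w hw
    rw [hnν]
    exact hpos ((w.comp (ρL : L →+* L)).comp (ρL : L →+* L)) (by
      change w (ρL (ρL (algebraMap k L a))) < 0
      rw [AlgEquiv.commutes, AlgEquiv.commutes]
      exact hw)
  obtain ⟨x0, n, hn1, hn2⟩ := exists_x0 H hx0 hposx
  obtain ⟨z, hz1, hz2, hz3⟩ := exists_z (c := c) H x0 x n (by
    rw [hn1, ← hn2, ← map_mul, sq])
  have hc : ((up E c : Eˣ) : E) ≠ 0 := (up E c).ne_zero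
  have hq2 : ρ (ρ q0) ≠ 0 := hj.q2_ne
  refine ⟨z, hz1, fun κ hκ => hz2 κ (by rw [hnν, hρ3L]; exact hκ),
    (((up E c : Eˣ) : E) * (q0 * ρ (ρ q0)))⁻¹,
    inv_ne_zero (mul_ne_zero hc (mul_ne_zero hq hq2)), ?_⟩
  have hσq2 : σ (ρ (ρ q0)) = ρ (ρ q0) := hj.s2'
  have hJ : Jm ρ σ α q (⟨0, mk4 (up E a) (up E b) α s 0 t 0⟩ : OctL E a b c) =
      ⟨0, mk4 (up E a) (up E b) α 0 (σ s * (q0 * ρ q0)) 0 (σ t * q0)⟩ := by
    rw [Jm_Jq]
    apply Oct.ext
    · rw [fst_Jq, qmap_zero, mul_zero, zero_mul]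
    · rw [snd_Jq, hj.m0, qmap_mk4' hj.sa, mk4_mul hj.al]
      simp only [map_zero, mul_zero, zero_mul, add_zero, zero_add]
  rw [hz3, hJ]
  apply Oct.ext
  · rw [fst_smul, fst_tri]
    change psiL α q x * (ep α : OctL E a b c).fst * star (qmap ρ (qmap ρ (psiL α q x))) = _
    rw [hx, ep_mk4, qmap_mk4 hj.ra, qmap_mk4 hj.ra, qmap_mk4 hj.ra, qmap_mk4 hj.ra,
      qmap_mk4 hj.ra, star_zero, qmap_zero, qmap_zero, star_mk4, star_mk4, mk4_mul hj.al,
      mk4_mul hj.al, mk4_mul hj.al, smul_mk4, zero_mul, zero_add, smul_mk4]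
    simp only [map_zero, map_neg, map_mul, map_inv₀, neg_zero, mul_zero, zero_mul, add_zero,
      zero_add, mul_one, H.ρ3, neg_neg, H.comm]
    congr 1
    all_goals
      field_simp
  · rw [snd_smul, snd_tri]
    simp only [star_zero, qmap_zero, mul_zero, add_zero, neg_zero, smul_zero]
    change _ • (qup E x0 * (0 : Qt (up E a) (up E b)) * _) = (0 : Qt (up E a) (up E b))
    rw [mul_zero, zero_mul, smul_zero]

end line

end Vale.Agent.P011.D4X
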